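import Vale.Agent.P050.Sampling

namespace Vale.Agent.Results.P050.LocalMaxDegree

open MeasureTheory

/-- Local Sidorenko with a radius depending only on the maximum degree: if `H` is bipartite and
`W` is a symmetric measurable function of mean one with `|W - 1| ≤ 1 / (1000 Δ(H))` a.e.,
then `t(H,W) ≥ 1`. -/
theorem result : ∀ {V : Type*} [Fintype V] [DecidableEq V] (H : SimpleGraph V)
    [DecidableRel H.Adj], H.IsBipartite →
    ∀ {Ω : Type*} [MeasurableSpace Ω] (μ : Measure Ω) [IsProbabilityMeasure μ]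
      (W : Ω → Ω → ℝ) (hW : ∀ x y, W x y = W y x),
      Measurable (Function.uncurry W) →
      ∫ p, W p.1 p.2 ∂(μ.prod μ) = 1 →
      (∀ᵐ p ∂(μ.prod μ), 1000 * (H.maxDegree : ℝ) * |W p.1 p.2 - 1| ≤ 1) →
      1 ≤ Vale.Agent.P050.homDensity H μ W hW := by
  intro V _ _ H _ hbip Ω _ μ _ W hW hm hi hc
  exact Vale.Agent.P050.local_sidorenko H hbip W hW hm hi hc

end Vale.Agent.Results.P050.LocalMaxDegree
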