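import Mathlib
import Vale.Agent.P050.Lattice.Graph

namespace Vale.Agent.Results.P050.LogSupermodularTargets

open Finset

/-- Every bipartite graph satisfies the Sidorenko inequality in every finite weighted symmetric
target that pulls back to a log-supermodular kernel on products of finitely many chains with
product weights, in every target that is totally positive of order two in some orders, and in
every target of rank at most two. -/
theorem result : ∀ {V S : Type} [Fintype V] [DecidableEq V] [Fintype S] [DecidableEq S]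
    (H : SimpleGraph V) [DecidableRel H.Adj], H.IsBipartite →
    ∀ (μ : S → ℝ) (W : S → S → ℝ), (∀ s, 0 ≤ μ s) → ∑ s, μ s = 1 → (∀ s t, 0 ≤ W s t) →
      ∀ (hW : ∀ s t, W s t = W t s),
      ((∃ (d d' k l : ℕ) (m : Fin d → Fin (k + 1) → ℝ) (n : Fin d' → Fin (l + 1) → ℝ)
          (eR : (Fin d → Fin (k + 1)) → S) (eC : (Fin d' → Fin (l + 1)) → S),
          (∀ c s, 0 ≤ m c s) ∧ (∀ c, ∑ s, m c s = 1) ∧
          (∀ c s, 0 ≤ n c s) ∧ (∀ c, ∑ s, n c s = 1) ∧
          (∀ s, μ s = ∑ x with eR x = s, ∏ c, m c (x c)) ∧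
          (∀ s, μ s = ∑ y with eC y = s, ∏ c, n c (y c)) ∧
          ∀ x x' y y', W (eR x) (eC y) * W (eR x') (eC y') ≤
            W (eR (x ⊓ x')) (eC (y ⊓ y')) * W (eR (x ⊔ x')) (eC (y ⊔ y')))
        ∨ (∃ (eR eC : Fin (Fintype.card S) ≃ S), ∀ i i' j j', i ≤ i' → j ≤ j' →
            W (eR i) (eC j') * W (eR i') (eC j) ≤ W (eR i) (eC j) * W (eR i') (eC j'))
        ∨ (∃ f₁ f₂ g₁ g₂ : S → ℝ, ∀ s t, W s t = f₁ s * g₁ t + f₂ s * g₂ t)) →
      (∑ s, ∑ t, μ s * μ t * W s t) ^ H.edgeFinset.card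
        ≤ ∑ x : V → S, (∏ v, μ (x v)) *
            ∏ e ∈ H.edgeFinset,
              Sym2.lift ⟨fun u v => W (x u) (x v), fun u v => hW (x u) (x v)⟩ e := by
  intro V S _ _ _ _ H _ hH μ W hμ hμ1 hW0 hW hcase
  obtain ⟨col⟩ := hH
  have hc : ∀ u v, H.Adj u v → decide (col u = 0) ≠ decide (col v = 0) := by
    intro u v huv
    have key : ∀ a b : Fin 2, a ≠ b → decide (a = 0) ≠ decide (b = 0) := by decide
    exact key _ _ (col.valid huv)
  rcases hcase with h | ⟨eR, eC, h⟩ | ⟨f₁, f₂, g₁, g₂, h⟩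
  · exact Vale.P050.Lattice.graph_pullback H _ hc μ W hW0 hW h
  · exact Vale.P050.TP2.graph_sidorenko H _ hc μ W hμ hμ1 hW0 hW ⟨eR, eC, h⟩
  · exact Vale.P050.TP2.graph_sidorenko H _ hc μ W hμ hμ1 hW0 hW
      (Vale.P050.TP2.orderable_of_rankTwo W hW0 f₁ f₂ g₁ g₂ h)

end Vale.Agent.Results.P050.LogSupermodularTargets
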